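import Vale.Agent.P272.GEO.Joint
import Vale.Agent.P272.BR.Spd
import Vale.Agent.P272.GJ.Mfd
import Vale.Agent.P272.PB.B13a

/-! Families of discs in a holomorphic tube: `Γ s z = F z (s • W z)`. -/

open scoped Manifold ContDiff ComplexOrder Topology
open Set Metric Filter

set_option linter.all false

noncomputable section

namespace Vale.Agent.P272.EX

open Vale.Agent.P272.K Vale.Agent.P272.BR Vale.Agent.P272.HY Vale.Agent.P272.GJ
  Vale.Agent.P272.GEO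

section
variable {n : ℕ} {X : Type*} [TopologicalSpace X] [ChartedSpace (Cm n) X]
  {w : Chart n X → Cm n → Matrix (Fin n) (Fin n) ℂ} {δ : ℝ} {f : ℂ → X} {F : ℂ → Cm n → X}
  {e : Chart n X} {z : ℂ} {ζ : Cm n}

/-- the fibre derivative of a tube is continuous up to the boundary -/
lemma fib_cont (hF : HolTube f δ F) {z0 : ℂ} (hz0 : z0 ∈ closedBall (0 : ℂ) 1) {ζ0 : Cm n}
    (hζ0 : ζ0 ∈ ball (0 : Cm n) δ) (he : At e (F z0 ζ0)) :
    ContinuousWithinAt (fun p : ℂ × Cm n => fderiv ℂ (fun ζ => e (F p.1 ζ)) p.2)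
      (closedBall 0 1 ×ˢ ball 0 δ) (z0, ζ0) := by
  have h0 : ∀ᶠ p : ℂ × Cm n in 𝓝[closedBall 0 1] z0 ×ˢ 𝓝[ball 0 δ] ζ0,
      F p.1 p.2 ∈ e.source := by
    rw [← nhdsWithin_prod_eq]
    exact (hF.cont (z0, ζ0) ⟨hz0, hζ0⟩).eventually (e.open_source.mem_nhds he.2)
  obtain ⟨pa, hpa, pb, hpb, hab⟩ := Filter.eventually_prod_iff.1 h0
  rw [isOpen_ball.nhdsWithin_eq hζ0] at hpb
  obtain ⟨V, hVsub, hV, hζV⟩ := _root_.mem_nhds_iff.1
    (inter_mem (show {x | pb x} ∈ 𝓝 ζ0 from hpb) (isOpen_ball.mem_nhds hζ0))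
  set S : Set ℂ := {z | pa z} ∩ closedBall 0 1 with hS
  have hSmem : S ∈ 𝓝[closedBall 0 1] z0 := inter_mem hpa self_mem_nhdsWithin
  have hat : ∀ z ∈ S, ∀ ζ ∈ V, At e (F z ζ) := fun z hz ζ hζ =>
    ⟨he.1, hab hz.1 (hVsub hζ).1⟩
  have hc : ContinuousOn (fun p : ℂ × Cm n => e (F p.1 p.2)) (S ×ˢ V) := by
    have h1 : ContinuousOn (fun p : ℂ × Cm n => F p.1 p.2) (S ×ˢ V) :=
      hF.cont.mono (fun p hp => ⟨hp.1.2, (hVsub hp.2).2⟩)
    exact e.continuousOn.comp h1 (fun p hp => (hat _ hp.1 _ hp.2).2)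
  have hd : ∀ z ∈ S, DifferentiableOn ℂ (fun ζ => e (F z ζ)) V := fun z hz ζ hζ =>
    (hF.holz z hz.2 ζ (hVsub hζ).2 e (hat z hz ζ hζ)).differentiableWithinAt
  have h2 := continuousOn_fderiv_of (G := fun z ζ => e (F z ζ)) hV hc hd
  have hz0S : z0 ∈ S := ⟨hpa.self_of_nhdsWithin hz0, hz0⟩
  refine (h2 (z0, ζ0) ⟨hz0S, hζV⟩).mono_of_mem_nhdsWithin ?_
  rw [nhdsWithin_prod_eq]
  exact Filter.prod_mem_prod hSmem (mem_nhdsWithin_of_mem_nhds (hV.mem_nhds hζV))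

lemma tj_mulVec (F : ℂ → Cm n → X) (e : Chart n X) (z : ℂ) (ζ u : Cm n) :
    (tj F e z ζ).mulVec u = fderiv ℂ (fun ζ' => e (F z ζ')) ζ u := by
  have h1 : u = ∑ j, u j • (Pi.single j 1 : Cm n) := by
    conv_lhs => rw [pi_eq_sum_univ' u]
  conv_rhs => rw [h1, map_sum]
  funext i
  simp only [Matrix.mulVec, dotProduct, tj, Matrix.of_apply, map_smul, Finset.sum_apply,
    Pi.smul_apply, smul_eq_mul]
  exact Finset.sum_congr rfl fun j _ => mul_comm _ _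

/-- the family of discs -/
def Gam (F : ℂ → Cm n → X) (W : ℂ → Cm n) (s z : ℂ) : X := F z (s • W z)

variable {W : ℂ → Cm n} {ε : ℝ}

lemma exists_eps (hδ : 0 < δ) (hW : ContinuousOn W (closedBall 0 1)) :
    ∃ ε > 0, ∀ s ∈ ball (0 : ℂ) ε, ∀ z ∈ closedBall (0 : ℂ) 1, s • W z ∈ ball (0 : Cm n) δ := by
  obtain ⟨C, hC⟩ := (isCompact_closedBall (0 : ℂ) 1).exists_bound_of_continuousOn hW
  have hC0 : 0 ≤ C := (norm_nonneg _).trans (hC 0 (mem_closedBall_self zero_le_one))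
  refine ⟨δ / (C + 1), by positivity, fun s hs z hz => ?_⟩
  rw [mem_ball_zero_iff] at hs ⊢
  rw [norm_smul]
  have h1 := hC z hz
  have h2 : δ / (C + 1) * (C + 1) = δ := by field_simp
  nlinarith [norm_nonneg s, norm_nonneg (W z)]

lemma gam_cont (hF : HolTube f δ F) (hW : Continuous W)
    (hε : ∀ s ∈ ball (0 : ℂ) ε, ∀ z ∈ closedBall (0 : ℂ) 1, s • W z ∈ ball (0 : Cm n) δ) :
    ContinuousOn (fun q : ℂ × ℂ => Gam F W q.1 q.2) (ball 0 ε ×ˢ closedBall 0 1) := by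
  have h1 : ContinuousOn (fun q : ℂ × ℂ => (q.2, q.1 • W q.2)) (ball 0 ε ×ˢ closedBall 0 1) := by
    fun_prop
  exact hF.cont.comp h1 (fun q hq => ⟨hq.2, hε _ hq.1 _ hq.2⟩)

/-- (a) joint holomorphy -/
lemma gam_holAt2 (hF : HolTube f δ F) (hW : Differentiable ℂ W)
    (hε : ∀ s ∈ ball (0 : ℂ) ε, ∀ z ∈ closedBall (0 : ℂ) 1, s • W z ∈ ball (0 : Cm n) δ)
    {s z : ℂ} (hs : s ∈ ball (0 : ℂ) ε) (hz : z ∈ ball (0 : ℂ) 1) :
    HolAt2 n (Gam F W) (s, z) := by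
  have hzc := ball_subset_closedBall hz
  refine ⟨?_, fun e he => ?_⟩
  · exact (gam_cont hF hW.continuous hε (s, z) ⟨hs, hzc⟩).continuousAt
      (prod_mem_nhds (isOpen_ball.mem_nhds hs)
        (mem_of_superset (isOpen_ball.mem_nhds hz) ball_subset_closedBall))
  · have h1 := hF.holo z hz (s • W z) (hε s hs z hzc) e he
    have h2 : DifferentiableAt ℂ (fun q : ℂ × ℂ => (q.2, q.1 • W q.2)) (s, z) := by
      have h3 : DifferentiableAt ℂ (fun q : ℂ × ℂ => W q.2) (s, z) :=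
        DifferentiableAt.comp (g := W) (s, z) (hW z) differentiableAt_snd
      exact differentiableAt_snd.prodMk (differentiableAt_fst.smul h3)
    exact DifferentiableAt.comp (g := fun p : ℂ × Cm n => e (F p.1 p.2)) (s, z) h1 h2

/-- the velocity in `s` -/
lemma gam_hasDerivAt (hF : HolTube f δ F)
    (hε : ∀ s ∈ ball (0 : ℂ) ε, ∀ z ∈ closedBall (0 : ℂ) 1, s • W z ∈ ball (0 : Cm n) δ)
    {s z : ℂ} (hs : s ∈ ball (0 : ℂ) ε) (hz : z ∈ closedBall (0 : ℂ) 1)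
    (he : At e (F z (s • W z))) :
    HasDerivAt (fun σ => e (Gam F W σ z))
      (fderiv ℂ (fun ζ => e (F z ζ)) (s • W z) (W z)) s := by
  have h1 := (hF.holz z hz (s • W z) (hε s hs z hz) e he).hasFDerivAt
  have h2 : HasDerivAt (fun σ : ℂ => σ • W z) (W z) s := by
    simpa using (hasDerivAt_id s).smul_const (W z)
  exact HasFDerivAt.comp_hasDerivAt (l := fun ζ => e (F z ζ)) s h1 h2

lemma gam_vel (hF : HolTube f δ F)
    (hε : ∀ s ∈ ball (0 : ℂ) ε, ∀ z ∈ closedBall (0 : ℂ) 1, s • W z ∈ ball (0 : Cm n) δ)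
    {s z : ℂ} (hs : s ∈ ball (0 : ℂ) ε) (hz : z ∈ closedBall (0 : ℂ) 1)
    (he : At e (F z (s • W z))) :
    vel (fun σ => Gam F W σ z) e s = fderiv ℂ (fun ζ => e (F z ζ)) (s • W z) (W z) :=
  (gam_hasDerivAt hF hε hs hz he).deriv

/-- (c) holomorphy in `s` up to the boundary of the disc -/
lemma gam_holAt (hF : HolTube f δ F)
    (hε : ∀ s ∈ ball (0 : ℂ) ε, ∀ z ∈ closedBall (0 : ℂ) 1, s • W z ∈ ball (0 : Cm n) δ)
    {s z : ℂ} (hs : s ∈ ball (0 : ℂ) ε) (hz : z ∈ closedBall (0 : ℂ) 1) :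
    HolAt n (fun σ => Gam F W σ z) s := by
  refine ⟨?_, fun e he => (gam_hasDerivAt hF hε hs hz he).differentiableAt⟩
  have h1 : ContinuousAt (fun ζ => F z ζ) (s • W z) := PB.cont_snd hF hz (hε s hs z hz)
  exact ContinuousAt.comp (g := fun ζ => F z ζ) (f := fun σ : ℂ => σ • W z) h1
    (by fun_prop)

/-- (b) -/
lemma gam_zero (hF : HolTube f δ F) (hz : z ∈ closedBall (0 : ℂ) 1) : Gam F W 0 z = f z := by
  unfold Gam
  rw [zero_smul, hF.zero z hz]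

lemma gam_base (hF : HolTube f δ F) (hW0 : W 0 = 0) (s : ℂ) : Gam F W s 0 = f 0 := by
  unfold Gam
  rw [hW0, smul_zero, hF.zero 0 (mem_closedBall_self zero_le_one)]

/-- (d) -/
lemma gam_vel_zero (hF : HolTube f δ F)
    (hε : ∀ s ∈ ball (0 : ℂ) ε, ∀ z ∈ closedBall (0 : ℂ) 1, s • W z ∈ ball (0 : Cm n) δ)
    (hε0 : 0 < ε) (hz : z ∈ closedBall (0 : ℂ) 1) (he : At e (f z)) :
    vel (fun σ => Gam F W σ z) e 0 = (tj F e z 0).mulVec (W z) := by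
  have he' : At e (F z ((0 : ℂ) • W z)) := by rw [zero_smul, hF.zero z hz]; exact he
  rw [gam_vel hF hε (mem_ball_self hε0) hz he', zero_smul, tj_mulVec]

variable [IsManifold 𝓘(ℂ, Cm n) ω X]

/-- the speed in `s`, in any chart -/
lemma gam_spd (hw : IsHermitian w) (hF : HolTube f δ F)
    (hε : ∀ s ∈ ball (0 : ℂ) ε, ∀ z ∈ closedBall (0 : ℂ) 1, s • W z ∈ ball (0 : Cm n) δ)
    {s z : ℂ} (hs : s ∈ ball (0 : ℂ) ε) (hz : z ∈ closedBall (0 : ℂ) 1)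
    (he : At e (F z (s • W z))) :
    BR.spd w (fun σ => Gam F W σ z) s = (quad (w e (e (Gam F W s z)))
      (fderiv ℂ (fun ζ => e (F z ζ)) (s • W z) (W z))).re := by
  rw [spd_eq hw (gam_holAt hF hε hs hz) he, gam_vel hF hε hs hz he]

/-- (d) -/
lemma gam_spd_zero (hw : IsHermitian w) (hF : HolTube f δ F)
    (hε : ∀ s ∈ ball (0 : ℂ) ε, ∀ z ∈ closedBall (0 : ℂ) 1, s • W z ∈ ball (0 : Cm n) δ)
    (hε0 : 0 < ε) (hz : z ∈ closedBall (0 : ℂ) 1) :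
    BR.spd w (fun σ => Gam F W σ z) 0 = hq (pbM w F z) (W z) := by
  have he := at_chartAt (n := n) (F z 0)
  have he' : At (chartAt (Cm n) (F z 0)) (F z ((0 : ℂ) • W z)) := by rw [zero_smul]; exact he
  rw [gam_spd hw hF hε (mem_ball_self hε0) hz he', hq, PB.pbM_eq hw hF hz he, quad_change,
    zero_smul, tj_mulVec]
  simp only [Gam, zero_smul]

/-- (e) continuity of the speed in `s` up to the boundary -/
lemma gam_spd_cont (hw : IsHermitian w) (hF : HolTube f δ F) (hW : Continuous W)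
    (hε : ∀ s ∈ ball (0 : ℂ) ε, ∀ z ∈ closedBall (0 : ℂ) 1, s • W z ∈ ball (0 : Cm n) δ) :
    ContinuousOn (fun q : ℂ × ℂ => BR.spd w (fun σ => Gam F W σ q.2) q.1)
      (ball 0 ε ×ˢ closedBall 0 1) := by
  rintro ⟨s0, z0⟩ ⟨hs0, hz0⟩
  set e : Chart n X := chartAt (Cm n) (F z0 (s0 • W z0)) with hedef
  have he : At e (F z0 (s0 • W z0)) := at_chartAt _
  have hc0 := gam_cont hF hW hε (s0, z0) ⟨hs0, hz0⟩
  have hat : ∀ᶠ q : ℂ × ℂ in 𝓝[ball 0 ε ×ˢ closedBall 0 1] (s0, z0), At e (Gam F W q.1 q.2) := by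
    filter_upwards [hc0.eventually (e.open_source.mem_nhds he.2)] with q hq
    exact ⟨he.1, hq⟩
  have hφ : ContinuousWithinAt (fun q : ℂ × ℂ => (q.2, q.1 • W q.2))
      (ball 0 ε ×ˢ closedBall 0 1) (s0, z0) := by fun_prop
  have hmap : MapsTo (fun q : ℂ × ℂ => (q.2, q.1 • W q.2)) (ball 0 ε ×ˢ closedBall 0 1)
      (closedBall 0 1 ×ˢ ball 0 δ) := fun q hq => ⟨hq.2, hε _ hq.1 _ hq.2⟩
  have h1 : ContinuousWithinAt (fun q : ℂ × ℂ => fderiv ℂ (fun ζ => e (F q.2 ζ)) (q.1 • W q.2))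
      (ball 0 ε ×ˢ closedBall 0 1) (s0, z0) :=
    ContinuousWithinAt.comp (g := fun p : ℂ × Cm n => fderiv ℂ (fun ζ => e (F p.1 ζ)) p.2)
      (f := fun q : ℂ × ℂ => (q.2, q.1 • W q.2)) (x := (s0, z0))
      (fib_cont hF hz0 (hε s0 hs0 z0 hz0) he) hφ hmap
  have h2 : ContinuousWithinAt (fun q : ℂ × ℂ => W q.2)
      (ball 0 ε ×ˢ closedBall 0 1) (s0, z0) := by fun_prop
  have h3 : ContinuousWithinAt
      (fun q : ℂ × ℂ => fderiv ℂ (fun ζ => e (F q.2 ζ)) (q.1 • W q.2) (W q.2))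
      (ball 0 ε ×ˢ closedBall 0 1) (s0, z0) := h1.clm_apply h2
  have h4 : ContinuousWithinAt (fun q : ℂ × ℂ => e (Gam F W q.1 q.2))
      (ball 0 ε ×ˢ closedBall 0 1) (s0, z0) :=
    (e.continuousAt he.2).comp_continuousWithinAt (f := fun q : ℂ × ℂ => Gam F W q.1 q.2) hc0
  have h5 := tendsto_quad hw (x := Gam F W s0 z0) he h4 h3
  have h6 : ContinuousWithinAt (fun q : ℂ × ℂ => (quad (w e (e (Gam F W q.1 q.2)))
      (fderiv ℂ (fun ζ => e (F q.2 ζ)) (q.1 • W q.2) (W q.2))).re)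
      (ball 0 ε ×ˢ closedBall 0 1) (s0, z0) := h5
  refine h6.congr_of_eventuallyEq ?_ ?_
  · filter_upwards [hat, self_mem_nhdsWithin] with q hq hq'
    exact gam_spd hw hF hε hq'.1 hq'.2 hq
  · exact gam_spd hw hF hε hs0 hz0 he

omit [IsManifold 𝓘(ℂ, Cm n) ω X] in
/-- (f) the mixed derivative at the centre -/
lemma gam_mixed (hF : HolTube f δ F) {p : ℂ → Cm n} (hp : Continuous p)
    (hε : ∀ s ∈ ball (0 : ℂ) ε, ∀ z ∈ closedBall (0 : ℂ) 1, s • (z • p z) ∈ ball (0 : Cm n) δ)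
    (hε0 : 0 < ε) (he : At e (f 0)) :
    HasDerivAt (fun z => vel (fun σ => Gam F (fun z => z • p z) σ z) e 0)
      ((tj F e 0 0).mulVec (p 0)) 0 := by
  have h00 : (0 : ℂ) ∈ closedBall (0 : ℂ) 1 := mem_closedBall_self zero_le_one
  have he0 : At e (F 0 0) := by rw [hF.zero 0 h00]; exact he
  have hc : ContinuousWithinAt (fun p : ℂ × Cm n => fderiv ℂ (fun ζ => e (F p.1 ζ)) p.2)
      (closedBall 0 1 ×ˢ ball 0 δ) (0, 0) := fib_cont hF h00 (mem_ball_self hF.pos) he0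
  have hc1 : ContinuousAt (fun z : ℂ => fderiv ℂ (fun ζ => e (F z ζ)) 0) 0 := by
    have h1 : ContinuousAt (fun p : ℂ × Cm n => fderiv ℂ (fun ζ => e (F p.1 ζ)) p.2) (0, 0) :=
      hc.continuousAt (prod_mem_nhds (closedBall_mem_nhds _ one_pos) (ball_mem_nhds _ hF.pos))
    exact ContinuousAt.comp (g := fun p : ℂ × Cm n => fderiv ℂ (fun ζ => e (F p.1 ζ)) p.2)
      (f := fun z : ℂ => (z, (0 : Cm n))) h1 (by fun_prop)
  have hc2 : ContinuousAt (fun z : ℂ => fderiv ℂ (fun ζ => e (F z ζ)) 0 (p z)) 0 :=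
    hc1.clm_apply hp.continuousAt
  have h3 : HasDerivAt (fun z : ℂ => z • fderiv ℂ (fun ζ => e (F z ζ)) 0 (p z))
      (fderiv ℂ (fun ζ => e (F 0 ζ)) 0 (p 0)) 0 := by
    rw [hasDerivAt_iff_tendsto_slope]
    have h4 : ContinuousAt.{0, 0} (fun z : ℂ => fderiv ℂ (fun ζ => e (F z ζ)) 0 (p z)) 0 := hc2
    refine (h4.tendsto.mono_left nhdsWithin_le_nhds).congr' ?_
    filter_upwards [self_mem_nhdsWithin] with z hz
    have hz' : z ≠ 0 := hz
    rw [slope_def_module, zero_smul, sub_zero, sub_zero, smul_smul, inv_mul_cancel₀ hz', one_smul]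
  rw [tj_mulVec]
  refine h3.congr_of_eventuallyEq ?_
  have hcf : ContinuousAt (fun z => F z 0) 0 :=
    (PB.cont_fst hF 0 h00).continuousAt (closedBall_mem_nhds _ one_pos)
  filter_upwards [hcf.eventually (e.open_source.mem_nhds he0.2),
    closedBall_mem_nhds (0 : ℂ) one_pos] with z hz1 hz2
  have hez : At e (f z) := by rw [← hF.zero z hz2]; exact ⟨he.1, hz1⟩
  rw [gam_vel_zero hF hε hε0 hz2 hez, tj_mulVec, map_smul]

end

end Vale.Agent.P272.EX
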