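import Vale.Agent.P272.HY.Blocks
import Vale.Agent.P272.S2D.TE
import Vale.Agent.P272.EX.Gam
import Vale.Agent.P272.GJ.Star

/-!
# P272 / EX: the extremal inequality (B11 and B11M)

The competitors `Γ s z = F z (s • (z • P z))`, `P` a vector of polynomials, in a holomorphic tube
around a maximiser, and the second variation.
-/

open scoped Manifold ContDiff ComplexOrder Topology ENNReal
open MeasureTheory Metric Set Filter

set_option linter.all false

noncomputable section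

namespace Vale.Agent.P272.EX

open Vale.Agent.P272.K Vale.Agent.P272.BR Vale.Agent.P272.HY Vale.Agent.P272.GJ
  Vale.Agent.P272.GEO

/-- the vector of values of a vector of polynomials -/
def pv {n : ℕ} (p : Fin n → Polynomial ℂ) (z : ℂ) : Cm n := fun i => (p i).eval z

lemma pv_diff {n : ℕ} (p : Fin n → Polynomial ℂ) : Differentiable ℂ (pv p) := by
  rw [differentiable_pi]
  intro i
  exact (p i).differentiable

lemma zpv_diff {n : ℕ} (p : Fin n → Polynomial ℂ) : Differentiable ℂ (fun z : ℂ => z • pv p z) :=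
  differentiable_id.smul (pv_diff p)

lemma quad_csmul {n : ℕ} (M : Matrix (Fin n) (Fin n) ℂ) (b : ℂ) (v : Cm n) :
    quad M (b • v) = ((‖b‖ ^ 2 : ℝ) : ℂ) * quad M v := by
  unfold quad
  rw [Finset.mul_sum]
  refine Finset.sum_congr rfl fun i _ => ?_
  rw [Finset.mul_sum]
  refine Finset.sum_congr rfl fun j _ => ?_
  have hb : b * cj b = ((‖b‖ ^ 2 : ℝ) : ℂ) := by
    simp [cj, Complex.mul_conj, Complex.normSq_eq_norm_sq]
  rw [← hb]
  simp only [Pi.smul_apply, smul_eq_mul, cj, map_mul]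
  ring

lemma hq_smul {n : ℕ} (H : Matrix (Fin n) (Fin n) ℂ) (c : ℂ) (v : Cm n) :
    hq H (c • v) = ‖c‖ ^ 2 * hq H v := by
  unfold hq
  rw [quad_csmul, Complex.re_ofReal_mul]

section
variable {n : ℕ} {X : Type*} [TopologicalSpace X] [ChartedSpace (Cm n) X]
  {w w' : Chart n X → Cm n → Matrix (Fin n) (Fin n) ℂ} {δ ε lam mu r : ℝ} {f : ℂ → X}
  {F : ℂ → Cm n → X} {p : Fin n → Polynomial ℂ}

lemma TE_eq_TT (w : Chart n X → Cm n → Matrix (Fin n) (Fin n) ℂ) (f : ℂ → X) :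
    TE w 1 f = TT (spd w f) := rfl

lemma gam_holD (hF : HolTube f δ F) {W : ℂ → Cm n} (hW : Differentiable ℂ W)
    (hε : ∀ s ∈ ball (0 : ℂ) ε, ∀ z ∈ closedBall (0 : ℂ) 1, s • W z ∈ ball (0 : Cm n) δ)
    {s : ℂ} (hs : s ∈ ball (0 : ℂ) ε) : HolD n (Gam F W s) := fun _ hz =>
  (gam_holAt2 hF hW hε hs hz).snd

lemma gam_eqOn (hF : HolTube f δ F) (W : ℂ → Cm n) :
    ∀ z ∈ ball (0 : ℂ) 1, Gam F W 0 z = f z := fun _ hz =>
  gam_zero hF (ball_subset_closedBall hz)

variable [IsManifold 𝓘(ℂ, Cm n) ω X]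

/-- the mixed derivative of the competitors at the centre -/
lemma gam_quad (hw : IsHermitian w) (hF : HolTube f δ F)
    (hε : ∀ s ∈ ball (0 : ℂ) ε, ∀ z ∈ closedBall (0 : ℂ) 1,
      s • (z • pv p z) ∈ ball (0 : Cm n) δ) (hε0 : 0 < ε) {e : Chart n X} (he : At e (f 0)) :
    (quad (w e (e (f 0)))
      (deriv (fun s => vel (Gam F (fun z => z • pv p z) s) e 0) 0)).re =
      hq (pbM w F 0) (fun i => (p i).eval 0) := by
  have h00 : (0 : ℂ) ∈ closedBall (0 : ℂ) 1 := mem_closedBall_self zero_le_one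
  have hev : ∀ᶠ q in 𝓝 ((0, 0) : ℂ × ℂ), HolAt2 n (Gam F (fun z => z • pv p z)) q :=
    ev_of_prod (P := fun q => HolAt2 n (Gam F (fun z => z • pv p z)) q)
      (fun s hs z hz => gam_holAt2 hF (zpv_diff p) hε hs hz) (mem_ball_self hε0)
      (mem_ball_self one_pos)
  have hg0 : Gam F (fun z => z • pv p z) 0 0 = f 0 := gam_zero hF h00
  have he0 : At e (Gam F (fun z => z • pv p z) 0 0) := by rw [hg0]; exact he
  rw [deriv_vel_symm hev he0, (gam_mixed hF (pv_diff p).continuous hε hε0 he).deriv]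
  have heF : At e (F 0 0) := by rw [hF.zero 0 h00]; exact he
  unfold hq
  rw [PB.pbM_eq hw hF h00 heF, BR.quad_change, hF.zero 0 h00]
  rfl

/-- the boundary average of the competitors -/
lemma gam_avg (hw' : IsHermitian w') (hF : HolTube f δ F)
    (hε : ∀ s ∈ ball (0 : ℂ) ε, ∀ z ∈ closedBall (0 : ℂ) 1,
      s • (z • pv p z) ∈ ball (0 : Cm n) δ) (hε0 : 0 < ε) :
    Real.circleAverage (fun z => spd w' (fun σ => Gam F (fun z => z • pv p z) σ z) 0) 0 1 =
      Real.circleAverage (fun z => hq (pbM w' F z) (fun i => (p i).eval z)) 0 1 := by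
  refine Real.circleAverage_congr_sphere fun z hz => ?_
  have hz1 : ‖z‖ = 1 := by simpa using hz
  have hzc : z ∈ closedBall (0 : ℂ) 1 := by simp [hz1]
  show spd w' (fun σ => Gam F (fun z => z • pv p z) σ z) 0 = _
  rw [gam_spd_zero hw' hF hε hε0 hzc, hq_smul, hz1, one_pow, one_mul]
  rfl

/-- `star_inequality` with `mu = 0`, for a Hermitian metric `w` -/
theorem star0 (hw : IsHermitian w) (hw' : IsKahler w') {Γ : ℂ → ℂ → X} {e : Chart n X}
    {ε0 : ℝ} (hε0 : 0 < ε0)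
    (hΓ : ∀ s ∈ ball (0 : ℂ) ε0, ∀ z ∈ ball (0 : ℂ) 1, HolAt2 n Γ (s, z))
    {x0 : X} (hx0 : ∀ s ∈ ball (0 : ℂ) ε0, Γ s 0 = x0)
    (hcont : ContinuousOn (fun p : ℂ × ℂ => spd w' (fun σ => Γ σ p.2) p.1)
      (ball 0 ε0 ×ˢ closedBall 0 1))
    (he : At e x0) {lam : ℝ} (hlam : 0 ≤ lam) (hT : TT (spd w' (Γ 0)) ≠ ⊤)
    (hmax : ∀ s ∈ ball (0 : ℂ) ε0, TT (spd w' (Γ s)) ≠ ⊤ →
      spd w (Γ s) 0 + lam * (TT (spd w' (Γ 0))).toReal ≤
        spd w (Γ 0) 0 + lam * (TT (spd w' (Γ s))).toReal) :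
    (quad (w e (e x0)) (deriv (fun s => vel (Γ s) e 0) 0)).re ≤
      lam * Real.circleAverage (fun z => spd w' (fun σ => Γ σ z) 0) 0 1 := by
  have hwH' := hw'.toIsHermitian
  have h01 : (0 : ℂ) ∈ ball (0 : ℂ) 1 := mem_ball_self one_pos
  have h00 : (0 : ℂ) ∈ ball (0 : ℂ) ε0 := mem_ball_self hε0
  have hev : ∀ s ∈ ball (0 : ℂ) ε0, ∀ z ∈ ball (0 : ℂ) 1,
      ∀ᶠ q in 𝓝 ((s, z) : ℂ × ℂ), HolAt2 n Γ q := fun s hs z hz =>
    ev_of_prod (P := fun q => HolAt2 n Γ q) hΓ hs hz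
  set B1 : ℂ → ℝ := fun s => spd w (Γ s) 0 with hB1
  have cB1 : ContinuousOn B1 (ball 0 ε0) := fun s hs =>
    (contDiffAt_fst (Θ := fun s z => spd w (Γ s) z)
      ((contDiffAt_spd_snd hw (hev s hs 0 h01)).of_le two_le_infty)).continuousAt.continuousWithinAt
  have hat : ∀ s ∈ ball (0 : ℂ) ε0, At e (Γ s 0) := fun s hs => by rw [hx0 s hs]; exact he
  have ha : DifferentiableOn ℂ (fun s => vel (Γ s) e 0) (ball 0 ε0) := fun s hs =>
    (hasDerivAt_vel_snd (hev s hs 0 h01) (hat s hs)).differentiableAt.differentiableWithinAt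
  have hB1eq : ∀ s ∈ ball (0 : ℂ) ε0, B1 s = (quad (w e (e x0)) (vel (Γ s) e 0)).re := by
    intro s hs
    simp only [hB1]
    rw [spd_eq hw (HolAt2.snd (hΓ s hs 0 h01)) (hat s hs), hx0 s hs]
  have hQ : (w e (e x0)).PosSemidef := (hw.posDef e x0 he).posSemidef
  refine second_variation (Θ := fun s z => spd w' (Γ s) z)
    (Ξ := fun s z => spd w' (fun σ => Γ σ z) s) hε0
    (fun s hs z hz => (contDiffAt_spd_snd hwH' (hev s hs z hz)).of_le two_le_infty)
    (fun s hs z hz => (contDiffAt_spd_fst hwH' (hev s hs z hz)).of_le two_le_infty)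
    (fun s hs z hz => spd_identity hw' (hev s hs z hz))
    (fun s hs z hz => spd_nonneg hwH' _ _) (fun s hs => spd_nonneg hwH' _ _) hcont
    (B := B1) cB1 ?_ hlam hT hmax
  intro ε hε
  have hsp : sphere (0 : ℂ) |ε| ⊆ ball 0 ε0 := by
    rw [abs_of_pos hε.1]; exact sphere_subset_closedBall.trans (closedBall_subset_ball hε.2)
  have h1 := quad_avg hQ ha hε
  rw [hB1eq 0 h00]
  refine h1.trans (le_of_eq ?_)
  refine Real.circleAverage_congr_sphere fun s hs => ?_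
  exact (hB1eq s (hsp hs)).symm

/-- **B11** -/
theorem extremal (hw : IsHermitian w) (hw' : IsKahler w') (hlam : 0 < lam)
    (hf : IsMaxDisc w w' lam f) (hF : HolTube f δ F) (p : Fin n → Polynomial ℂ) :
    hq (pbM w F 0) (fun i => (p i).eval 0) ≤
      lam * Real.circleAverage (fun z => hq (pbM w' F z) (fun i => (p i).eval z)) 0 1 := by
  have h01 : (0 : ℂ) ∈ ball (0 : ℂ) 1 := mem_ball_self one_pos
  obtain ⟨ε, hε0, hε⟩ := exists_eps (W := fun z => z • pv p z) hF.pos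
    (zpv_diff p).continuous.continuousOn
  set Γ := Gam F (fun z => z • pv p z) with hΓ
  have hwH' := hw'.toIsHermitian
  have he := at_chartAt (n := n) (f 0)
  have h0 : ∀ z ∈ ball (0 : ℂ) 1, Γ 0 z = f z := gam_eqOn hF _
  have hT0 : TT (spd w' (Γ 0)) = TE w' 1 f := by
    rw [← TE_eq_TT]; exact S2D.TE_congr h0 le_rfl
  have hs0 : spd w (Γ 0) 0 = spd w f 0 := S2D.spd_congr' h0 h01
  have key := star0 (w := w) (w' := w') (Γ := Γ) (e := chartAt (Cm n) (f 0)) (x0 := f 0)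
    (lam := lam) hw hw' hε0 (fun s hs z hz => gam_holAt2 hF (zpv_diff p) hε hs hz)
    (fun s _ => gam_base hF (zero_smul ℂ _) s) (gam_spd_cont hwH' hF (zpv_diff p).continuous hε)
    he hlam.le (by rw [hT0]; exact hf.fin) (fun s hs hTs => by
      have h1 := hf.max (Γ s) (gam_holD hF (zpv_diff p) hε hs) (gam_base hF (zero_smul ℂ _) s) hTs
      rw [hT0, hs0]
      rw [TE_eq_TT w' (Γ s)] at h1
      linarith)
  rwa [gam_quad hw hF hε hε0 he, gam_avg hwH' hF hε hε0] at key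

/-- the characteristic of radius `r < 1` is an ordinary integral -/
lemma toReal_TE (hw : IsHermitian w) {g : ℂ → X} (hg : HolD n g) (hr0 : 0 < r) (hr1 : r < 1) :
    (TE w r g).toReal = ∫ z in ball (0 : ℂ) r, Gr r z * spd w g z := by
  unfold TE
  rw [integral_eq_lintegral_of_nonneg_ae]
  · filter_upwards [ae_restrict_mem measurableSet_ball] with z hz
    exact mul_nonneg (Gr_nonneg hz) (spd_nonneg hw g z)
  · refine ((GJ.measurable_Gr r).aestronglyMeasurable).mul ?_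
    have h1 : ContinuousOn (spd w g) (ball 0 1) := HolOn.continuousOn_spd isOpen_ball hw hg
    exact (h1.mono (ball_subset_ball hr1.le)).aestronglyMeasurable measurableSet_ball

/-- **B11M** -/
theorem extremalM (hw : IsKahler w) (hw' : IsKahler w') (hmu : 0 ≤ mu) (hr0 : 0 < r) (hr1 : r < 1)
    (hlam : 0 < lam) (hf : S2D.IsMaxDiscM w w' mu r lam f) (hF : HolTube f δ F)
    (p : Fin n → Polynomial ℂ) :
    hq (pbM w F 0) (fun i => (p i).eval 0) ≤
      lam * Real.circleAverage (fun z => hq (pbM w' F z) (fun i => (p i).eval z)) 0 1 := by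
  have h01 : (0 : ℂ) ∈ ball (0 : ℂ) 1 := mem_ball_self one_pos
  obtain ⟨ε, hε0, hε⟩ := exists_eps (W := fun z => z • pv p z) hF.pos
    (zpv_diff p).continuous.continuousOn
  set Γ := Gam F (fun z => z • pv p z) with hΓ
  have hwH := hw.toIsHermitian
  have hwH' := hw'.toIsHermitian
  have he := at_chartAt (n := n) (f 0)
  have h0 : ∀ z ∈ ball (0 : ℂ) 1, Γ 0 z = f z := gam_eqOn hF _
  have hT0 : TT (spd w' (Γ 0)) = TE w' 1 f := by
    rw [← TE_eq_TT]; exact S2D.TE_congr h0 le_rfl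
  have hTr : TE w r (Γ 0) = TE w r f := S2D.TE_congr h0 hr1.le
  have hs0 : spd w (Γ 0) 0 = spd w f 0 := S2D.spd_congr' h0 h01
  have hhol : ∀ s ∈ ball (0 : ℂ) ε, HolD n (Γ s) := fun s hs => gam_holD hF (zpv_diff p) hε hs
  have key := star_inequality (w := w) (w' := w') (F := Γ) (e := chartAt (Cm n) (f 0))
    (x0 := f 0) (lam := lam) (mu := mu) (r := r) hw hw' hε0
    (fun s hs z hz => gam_holAt2 hF (zpv_diff p) hε hs hz)
    (fun s _ => gam_base hF (zero_smul ℂ _) s) (gam_spd_cont hwH' hF (zpv_diff p).continuous hε)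
    he hmu ⟨hr0, hr1⟩ hlam.le (by rw [hT0]; exact hf.fin) (fun s hs hTs => by
      have h1 := hf.max (Γ s) (hhol s hs) (gam_base hF (zero_smul ℂ _) s) hTs
      unfold S2D.Phi at h1
      rw [← toReal_TE hwH (hhol s hs) hr0 hr1,
        ← toReal_TE hwH (hhol 0 (mem_ball_self hε0)) hr0 hr1, hT0, hs0, hTr]
      rw [TE_eq_TT w' (Γ s)] at h1
      linarith)
  rwa [gam_quad hwH hF hε hε0 he, gam_avg hwH' hF hε hε0] at key

end

/-- **B11M** of `S2D/Iface.lean` -/
theorem b11M (n : ℕ) (X : Type) [TopologicalSpace X] [ChartedSpace (Cm n) X]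
    [IsManifold 𝓘(ℂ, Cm n) ω X] : S2D.B11M n X :=
  fun _ _ hw hw' _ _ _ _ _ _ hmu hr0 hr1 hlam hf hF p =>
    extremalM hw hw' hmu hr0 hr1 hlam hf hF p

/-- **B11** of `HY/Blocks.lean` -/
theorem b11 (n : ℕ) (X : Type) [TopologicalSpace X] [ChartedSpace (Cm n) X]
    [IsManifold 𝓘(ℂ, Cm n) ω X] : HY.B11 n X :=
  fun _ _ hw hw' _ _ _ _ hlam hf hF p => extremal hw hw' hlam hf hF p

end Vale.Agent.P272.EX
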